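import Vale.Agent.P212.Main.Total
import Vale.Agent.P212.Pair.Main
import Vale.Agent.P212.Bundle.Main
import Vale.Agent.P212.Bridge.Main

/-!
P212: the maximal coarse assembly map is not rationally injective.
-/

theorem Vale.Agent.Results.P212.CoarseMaxNotInjective.result : VP212.Lit.Disproof :=
  VP212.Bridge.bridge (VP212.disproof_of_pairing VP212.Pair.pairing VP212.Bundle.bundle)
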